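import Vale.Agent.P161.End

namespace Vale.Agent.Results.P161.Full

open Vale.Agent.P161

theorem result {V : Type*} (G : SimpleGraph V) (d : ℕ) (hd : 3 ≤ d) (hG : G.IsTree)
    (hreg : ∀ v, (G.neighborSet v).ncard = d) (β : ℝ) (hβ : 0 ≤ β)
    (hθ : ((d : ℝ) - 1) * Real.tanh β ^ 2 ≤ 1) :
    (∃ μ, IsFreeIsing G (Real.tanh β) μ) ∧
      ∀ μ, IsFreeIsing G (Real.tanh β) μ → IsFactorOfIID G μ :=
  main_le hd hG hreg (by
    rw [Real.tanh_eq_sinh_div_cosh]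
    exact div_nonneg (Real.sinh_nonneg_iff.2 hβ) (Real.cosh_pos β).le) hθ

end Vale.Agent.Results.P161.Full
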