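import Vale.Agent.P161.Main

namespace Vale.Agent.Results.P161.Threshold

open Vale.Agent.P161

theorem result {V : Type*} (G : SimpleGraph V) (d : ℕ) (hd : 3 ≤ d) (hG : G.IsTree)
    (hreg : ∀ v, (G.neighborSet v).ncard = d) (β : ℝ) (_hβ : 0 ≤ β)
    (hθ : ((d : ℝ) - 1) * Real.tanh β ^ 2 < 1) :
    (∃ μ, IsFreeIsing G (Real.tanh β) μ) ∧
      ∀ μ, IsFreeIsing G (Real.tanh β) μ → IsFactorOfIID G μ :=
  main hd hG hreg hθ

end Vale.Agent.Results.P161.Threshold
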